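import Vale.Agent.Kap.Main
import Vale.Agent.Kap.Torsion

theorem Vale.Agent.Results.P194.TorsionFree.result :
    ∃ (G : Type) (_ : Group G), (∀ g : G, IsOfFinOrder g → g = 1) ∧
      ∃ a b : MonoidAlgebra (ZMod 2) G, a * b = 1 ∧ b * a ≠ 1 := by
  obtain ⟨V, E, S, _, _, Γ, pos, C, hp, hf, a, b, c, h1, h2, h3⟩ := Vale.Agent.Kap.exists_graph
  exact ⟨Γ.Grp, inferInstance, Vale.Agent.Kap.torsionFree_of_fillBound hp hf, a, b, h1,
    Vale.Agent.Kap.not_symm_of_abc h2 h3⟩
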